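import Vale.Agent.P078.AllMasa.Cov.Nrm

/-! Endomorphisms of continuous functions are compositions, and a normalising element carries
small projections to small elements. -/

namespace Vale.Agent.P078.AllMasa

set_option linter.unusedSectionVars false

open Filter Topology ComplexOrder
open Vale.Agent.P078.Tracial

variable {M X : Type} [CStarAlgebra M] [PartialOrder M] [StarOrderedRing M]
variable [TopologicalSpace X] [CompactSpace X] [T2Space X] [TotallyDisconnectedSpace X]

theorem exists_comp_of_algHom (Φ : C(X, ℝ) →ₐ[ℝ] C(X, ℝ)) :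
    ∃ τ : C(X, X), ∀ f, Φ f = f.comp τ := by
  let ch : C(X, WeakDual.characterSpace ℝ C(X, ℝ)) :=
    ⟨fun x => WeakDual.CharacterSpace.equivAlgHom.symm
        ((ContinuousMap.evalAlgHom ℝ ℝ x).comp Φ), by
      refine Continuous.subtype_mk (WeakDual.continuous_of_continuous_eval fun f => ?_) _
      exact (Φ f).continuous⟩
  let h := WeakDual.CharacterSpace.homeoEval X ℝ
  refine ⟨⟨fun x => h.symm (ch x), h.symm.continuous.comp ch.continuous⟩, fun f => ?_⟩
  ext x
  calc Φ f x = (ch x) f := rfl
    _ = (h (h.symm (ch x))) f := by rw [h.apply_symm_apply]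
    _ = f (h.symm (ch x)) := rfl

namespace SCore

variable (C : SCore M X)

theorem tr_mul_sq_le (a w : M) (hw : IsSelfAdjoint w) :
    C.tr (a * w) ^ 2 ≤ C.tr (a * star a) * C.tr (w * w) := by
  have hd : discrim (C.tr (a * star a)) (2 * C.tr (a * w)) (C.tr (w * w)) ≤ 0 := by
    refine discrim_le_zero fun s => ?_
    have h0 : 0 ≤ C.tr (star (s • star a + w) * (s • star a + w)) :=
      C.tr_nonneg (star_mul_self_nonneg _)
    have e : C.tr (w * star a) = C.tr (a * w) := by
      rw [← C.tr_star, star_mul, star_star, hw.star_eq]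
    simp only [star_add, star_smul, star_trivial, star_star, hw.star_eq, mul_add, add_mul,
      smul_mul_assoc, mul_smul_comm, C.tr_add, C.tr_smul, e] at h0
    linarith
  rw [discrim] at hd
  linarith

/-- Conjugation carries projections of small integral to elements of small state. -/
theorem exists_small_conj (v : M) {η : ℝ} (hη : 0 < η) :
    ∃ δ > 0, ∀ w : C(X, ℝ), (∀ x, w x = 0 ∨ w x = 1) → C.ig w ≤ δ →
      C.tr (v * C.r w * star v) ≤ η := by
  by_contra hcon
  push Not at hcon
  choose w hw01 hwi hwv using fun n : ℕ => hcon (1 / (n + 1)) (by positivity)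
  have hn : ∀ n, ‖C.r (w n)‖ ≤ 1 := fun n => (C.norm_r_le _).trans
    ((ContinuousMap.norm_le _ zero_le_one).2 fun x => by
      rcases hw01 n x with h | h <;> simp [h])
  let U : Ultrafilter ℕ := Ultrafilter.of atTop
  have hU : (U : Filter ℕ) ≤ atTop := Ultrafilter.of_le _
  obtain ⟨e, -, he⟩ := C.weakLimit U (fun n => C.r (w n)) 1 hn
  have h0 : Tendsto (fun n => C.tr (star e * C.r (w n))) atTop (𝓝 0) := by
    refine squeeze_zero_norm (a := fun n : ℕ =>
      √(C.tr (star e * star (star e)) * (1 / ((n : ℝ) + 1)))) (fun n => ?_) ?_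
    · rw [Real.norm_eq_abs]
      refine Real.abs_le_sqrt ((C.tr_mul_sq_le (star e) _ (C.r_isSelfAdjoint _)).trans
        (mul_le_mul_of_nonneg_left ?_ (C.tr_nonneg (by rw [star_star]; exact star_mul_self_nonneg e))))
      have e1 : w n * w n = w n := by
        ext x; rcases hw01 n x with h | h <;> simp [h]
      rw [← C.r_mul, e1]
      exact hwi n
    · have h1 := (Real.continuous_sqrt.tendsto 0).comp (show Tendsto (fun n : ℕ =>
        C.tr (star e * star (star e)) * (1 / ((n : ℝ) + 1))) atTop (𝓝 0) by
          simpa using tendsto_one_div_add_atTop_nhds_zero_nat.const_mul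
            (C.tr (star e * star (star e))))
      simpa [Function.comp_def] using h1
  have h1 := (Complex.continuous_re.tendsto _).comp (he (star e) 1)
  simp only [Function.comp_def, mul_one] at h1
  have h2 : C.tr (star e * e) = 0 := tendsto_nhds_unique h1 (h0.mono_left hU)
  have he0 : e = 0 := C.φ_faithful e (Complex.ext h2 (C.φ_im_eq_zero e))
  have h3 := (Complex.continuous_re.tendsto _).comp (he v (star v))
  simp only [Function.comp_def, he0, mul_zero, zero_mul, map_zero, Complex.zero_re] at h3
  have h4 : η ≤ 0 := ge_of_tendsto h3 (Eventually.of_forall fun n => (hwv n).le)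
  linarith

end SCore

end Vale.Agent.P078.AllMasa
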